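import Vale.Agent.P281.H167.ML.Iface
import Vale.Agent.P281.H413.MFS.DataX
import Vale.Agent.P281.H575.MFS.Low
import Vale.Agent.P281.H368.MFS.Main
import Vale.Agent.P281.H167.RC.Main
import Vale.Agent.P281.H564.GMb
import Vale.Agent.P281.H342.KG.ME3

/-! P281, theorem ML (log canonical pairs with a Mori fibre space over a projective base): the
assembly. -/

open scoped Manifold ContDiff Topology ComplexOrder
open Set Filter Vale.Agent.P281 Vale.Agent.P272.K Vale.Agent.P272.K.AMP Vale.Agent.P299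
open Vale.Agent.P272.K.INT (IsClosedForm)

noncomputable section

namespace Vale.Agent.P281.H368.ML

open Vale.Agent.P281.MF Vale.Agent.P281.ISO
open Vale.Agent.P281.H713 Vale.Agent.P281.H713.SA Vale.Agent.P281.H713.KD Vale.Agent.P281.H716
open Vale.Agent.P281.H167.GM (mixX addF isClosed_addF)
open Vale.Agent.P281.H167.KG (FormPartG)
open Vale.Agent.P281.H167.ML
open Vale.Agent.P281.H368.MFS (IsSemiPos VolLoc ConAt SmallAt ConFib InKer GrowthPartM MainPartM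
  kod_eq_bot)

section fibre

variable {n p d : ℕ} {X Z Y F : Type}
  [TopologicalSpace X] [T2Space X] [CompactSpace X] [ConnectedSpace X]
  [ChartedSpace (Cm n) X] [IsManifold 𝓘(ℂ, Cm n) ω X]
  [TopologicalSpace Z] [ChartedSpace (Cm n) Z] [IsManifold 𝓘(ℂ, Cm n) ω Z]
  [TopologicalSpace Y] [T2Space Y] [ConnectedSpace Y]
  [ChartedSpace (Cm p) Y] [IsManifold 𝓘(ℂ, Cm p) ω Y]
  [TopologicalSpace F] [ChartedSpace (Cm d) F] [IsManifold 𝓘(ℂ, Cm d) ω F]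

/-- the rational curves on the fibre replaced by contracted hypersurfaces -/
theorem fib_of_rat (rat : RatPartM) (hT : H167.RC.TensT) (hn : n = p + d)
    {Δ : Set X → ℝ} (hΔ : J.IsSNC (Cm n) Δ)
    {m : ℕ} {k : Set X → ℕ} {α θ : D.FormM n X} (hα : IsSemiPos α) (hθ : IsSemiPos θ)
    {ν : ℕ} {W : X → ℝ} {P : Prop}
    {j : Z → X} (hj : J.IsBigOpen (Cm n) j) {f : Z → Y}
    (hf : ContMDiff 𝓘(ℂ, Cm n) 𝓘(ℂ, Cm p) ω f)
    {i : F → Z} (hi : IsSmoothFibre (Cm n) (Cm p) (Cm d) f i) {νF : ℕ}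
    (hF : ∀ t : F, ∃ (r : ℕ) (g : Fin r → X → ℂ) (a : Fin r → ℕ),
      VolLoc n m (fun (D : Set X) z g => J.IsLocalEq (Cm n) D g z) k W α θ (j (i t)) g a ∧
      (∀ l, J.dif (Cm d) (fun t => g l (j (i t))) t ≠ 0) ∧
      ∀ l, (∀ᶠ z in 𝓝 (j (i t)), g l z = 0 →
          ∃ᶠ z' in 𝓝 z, g l z' = 0 ∧ RatAtM n Δ (g l) α θ z') ∨
        ∀ᶠ s in 𝓝 t, g l (j (i s)) = 0 →
          (P ∧ ConFib n ν (fun t => j (i t)) (g l) α θ s) ∨
          ConAt d (fun t => g l (j (i t))) (H368.MFS.pull (fun t => j (i t)) α)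
            (H368.MFS.pull (fun t => j (i t)) θ) s ∨
          SmallAt d νF (fun t => g l (j (i t))) (H368.MFS.pull (fun t => j (i t)) θ) s)
    {m₁ : ℕ} (hm₁ : 0 < m₁) {K₀ : Set X → ℕ} (hK₀ : ∀ D, (K₀ D : ℝ) ≤ m₁ * Δ D)
    {𝒢 : Set (Set Y)} (h𝒢f : 𝒢.Finite) (h𝒢p : ∀ G ∈ 𝒢, J.IsPrime (Cm p) G) {σ : Y → ℂ}
    (hσ : TL.IsPullSection (n := n) (p := p) m₁ K₀ 𝒢 j f σ) {y₀ : Y}
    (hy₀ : ∀ G ∈ 𝒢, y₀ ∉ G) (hσy : σ y₀ ≠ 0) (t : F) :
    ∃ (r : ℕ) (g : Fin r → X → ℂ) (a : Fin r → ℕ),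
      VolLoc n m (fun (D : Set X) z g => J.IsLocalEq (Cm n) D g z) k W α θ (j (i t)) g a ∧
      (∀ l, J.dif (Cm d) (fun t => g l (j (i t))) t ≠ 0) ∧
      ∀ᶠ s in 𝓝 t, ∀ l, g l (j (i s)) = 0 →
          (P ∧ ConFib n ν (fun t => j (i t)) (g l) α θ s) ∨
          ConAt d (fun t => g l (j (i t))) (H368.MFS.pull (fun t => j (i t)) α)
            (H368.MFS.pull (fun t => j (i t)) θ) s ∨
          SmallAt d νF (fun t => g l (j (i t))) (H368.MFS.pull (fun t => j (i t)) θ) s := by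
  classical
  have hsub : ∃ z, Function.Surjective (mfderiv 𝓘(ℂ, Cm n) 𝓘(ℂ, Cm p) f z) :=
    ⟨i t, hi.submersive t⟩
  obtain ⟨l, K, hl, hK⟩ := H167.RC.exists_denom hΔ m₁
  obtain ⟨τ, hτ, hval⟩ := hT n p X Z Y j hj f hf hsub 𝒢 h𝒢f h𝒢p Δ hΔ m₁ hm₁ K₀ hK₀ σ hσ l hl K hK
  obtain ⟨κ, hκ, hsec⟩ := hσ.mero
  have hfin : {G | κ G ≠ 0}.Finite := h𝒢f.subset fun G hG => hκ G hG
  have hod := open_dense_ne (E₀ := Cm p) (F := Y) (m := m₁) (κ := κ) hfin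
    (fun G hG => h𝒢p G (hκ G hG)) hsec ⟨y₀, fun G hG => hy₀ G (hκ G hG), hσy⟩
  set O : Set Y := {y | (∀ G, κ G ≠ 0 → y ∉ G) ∧ σ y ≠ 0} ∩ (⋃₀ 𝒢)ᶜ with hO
  have hclosed : IsClosed (⋃₀ 𝒢) := by
    rw [sUnion_eq_biUnion]
    exact h𝒢f.isClosed_biUnion fun G hG => (h𝒢p G hG).1
  have hdense : Dense (⋃₀ 𝒢)ᶜ := by
    have h1 : (⋃₀ 𝒢)ᶜ = {y : Y | ∀ G, G ∈ 𝒢 → y ∉ G} := by
      ext y
      simp [mem_sUnion]
    rw [h1]
    have h2 := isOpen_off (E₀ := Cm p) (F := Y) (κ := fun G => if G ∈ 𝒢 then 1 else 0)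
      (by
        refine h𝒢f.subset fun G hG => ?_
        by_contra h
        exact hG (if_neg h)) (fun G hG => by
        refine h𝒢p G ?_
        by_contra h
        exact hG (if_neg h))
    refine h2.2.mono ?_
    intro y hy G hG
    exact hy G (by simp [hG])
  have hOo : IsOpen O := hod.1.inter hclosed.isOpen_compl
  have hOd : Dense O := hod.2.inter_of_isOpen_left hdense hod.1
  have hιh : ∀ t, HolM (Cm d) (Cm n) (fun s => j (i s)) t := fun t =>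
    ContMDiffAt.comp t (hj.1 (i t)) (hi.hol t)
  obtain ⟨r, g, a, hV, hgF, hdat⟩ := hF t
  refine ⟨r, g, a, hV, hgF, ?_⟩
  have hc : ContinuousAt (fun s => j (i s)) t := (hιh t).continuousAt
  rw [eventually_all]
  intro b
  rcases hdat b with hr | hr
  · have h3 : ∀ᶠ s in 𝓝 t, J.HolAt (Cm n) (g b) (j (i s)) :=
      hc.eventually (HolV.eventually (E := Cm n) (hV.holg b).1)
    have h5 : ∀ᶠ s in 𝓝 t, J.dif (Cm d) (fun s => g b (j (i s))) s ≠ 0 := by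
      have hgl : HolV (Cm d) (fun s => g b (j (i s))) t :=
        ContMDiffAt.comp t (hV.holg b).1 (hιh t)
      have hsurj : Function.Surjective (dV (Cm d) (fun s => g b (j (i s))) t) := by
        obtain ⟨ξ, hξ⟩ : ∃ ξ, dV (Cm d) (fun s => g b (j (i s))) t ξ ≠ 0 := by
          by_contra hcon
          push Not at hcon
          exact (hgF b) (ContinuousLinearMap.ext hcon)
        intro y
        refine ⟨(y / dV (Cm d) (fun s => g b (j (i s))) t ξ) • ξ, ?_⟩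
        rw [map_smul, smul_eq_mul, div_mul_cancel₀ _ hξ]
      filter_upwards [H167.RC.surj_dV_open hgl hsurj] with s hs hcon
      obtain ⟨ξ, hξ⟩ := hs 1
      have hcon' : dV (Cm d) (fun s => g b (j (i s))) s = 0 := hcon
      rw [hcon'] at hξ
      exact zero_ne_one hξ
    have h2 := hc.eventually (eventually_eventually_nhds.2 hr)
    filter_upwards [h2, h3, h5] with s k2 k3 k5 h0
    exact Or.inr (Or.inl (rat n p d hn X Z Y F j hj f hf Δ hΔ (m₁ * l) (Nat.mul_pos hm₁ hl) K hK τ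
      hτ O hOo hOd (fun z hz hzD => ⟨σ (f z) ^ l, pow_ne_zero _ hz.1.2,
        fun e he I => hval e z he hz.2 hzD I⟩) i hi α θ hα hθ (g b) s k3 k5 h0 k2))
  · exact hr

end fibre

/-- the restriction of `θ` to the fibre has rank `< d`, if `θ` is the pull-back of a Fubini-Study
form -/
theorem rank_lt (hform : FormPartG) (hgr : GrowthPartM) (sec : SecPart) (rk : RankPart)
    (eff : EffPart) {n p d : ℕ} (hn : n = p + d) {X Z Y F : Type}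
    [TopologicalSpace X] [T2Space X] [CompactSpace X] [ConnectedSpace X]
    [ChartedSpace (Cm n) X] [IsManifold 𝓘(ℂ, Cm n) ω X]
    [TopologicalSpace Z] [ChartedSpace (Cm n) Z] [IsManifold 𝓘(ℂ, Cm n) ω Z]
    [TopologicalSpace Y] [T2Space Y] [ConnectedSpace Y]
    [ChartedSpace (Cm p) Y] [IsManifold 𝓘(ℂ, Cm p) ω Y]
    [TopologicalSpace F] [T2Space F] [CompactSpace F] [ConnectedSpace F]
    [ChartedSpace (Cm d) F] [IsManifold 𝓘(ℂ, Cm d) ω F]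
    {χ : D.FormM n X} (hχ : IsKahler χ) {Δ : Set X → ℝ} (hΔ : J.IsSNC (Cm n) Δ)
    {m : ℕ} (hm : 0 < m) {k : Set X → ℕ} (hk : ∀ D, (k D : ℝ) = m * Δ D)
    {α θ : D.FormM n X} (hα : IsSemiPos α) (hθ : IsSemiPos θ)
    {N : ℕ} {Q : X → Fin N → ℂ} (hQ : IsFS Q θ)
    (hαd : Dense {x | (α (chartAt (Cm n) x) (chartAt (Cm n) x x)).PosDef})
    {ν : ℕ} (hν : ν < n) (hθν : ∀ e x, At e x → (θ e (e x)).rank ≤ ν)
    (hθd : Dense {x | (θ (chartAt (Cm n) x) (chartAt (Cm n) x x)).rank = ν})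
    {W : X → ℝ} (hW : ∀ x, ∃ (r : ℕ) (g : Fin r → X → ℂ) (a : Fin r → ℕ),
      VolLoc n m (fun (D : Set X) z g => J.IsLocalEq (Cm n) D g z) k W α θ x g a ∧
      ∀ᶠ z in 𝓝 x, ∀ i, g i z = 0 → ConAt n (g i) α θ z ∨ SmallAt n ν (g i) θ z)
    {j : Z → X} (hj : J.IsBigOpen (Cm n) j) {f : Z → Y}
    (hf : ContMDiff 𝓘(ℂ, Cm n) 𝓘(ℂ, Cm p) ω f)
    {i : F → Z} (hi : IsSmoothFibre (Cm n) (Cm p) (Cm d) f i)
    {m' : ℕ} (hm' : 0 < m') {K₀ : Set X → ℕ} (hK₀ : ∀ D, (K₀ D : ℝ) ≤ m' * Δ D)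
    {𝒢 : Set (Set Y)} (h𝒢f : 𝒢.Finite) (h𝒢p : ∀ G ∈ 𝒢, J.IsPrime (Cm p) G) {σ : Y → ℂ}
    (hσ : TL.IsPullSection (n := n) (p := p) m' K₀ 𝒢 j f σ) {y₀ : Y}
    (hy₀ : ∀ G ∈ 𝒢, y₀ ∉ G) (hσy : σ y₀ ≠ 0) (t : F) :
    (H368.MFS.pull (fun t => j (i t)) θ (chartAt (Cm d) t) (chartAt (Cm d) t t)).rank < d := by
  by_contra hcon
  push Not at hcon
  obtain ⟨b₀, c, hb₀, hDD⟩ := rk n p d N hn X Z Y F j hj f hf i hi Q θ hθ hQ t hcon
  obtain ⟨M, Dv, r, R, φ, ρ, C, C₁, hinj, hDv, hBd, hφ, -, -, -, -, -, hgrow⟩ :=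
    H413.MFS.exists_dataX hform hgr hχ hΔ hm hk hα hθ hθν hW
  obtain ⟨b, hb, hsec⟩ := sec n p d N M hn X Z Y χ hχ j hj f hf 𝒢 h𝒢f h𝒢p Δ hΔ Dv hinj hDv r R hBd
    φ hφ m' hm' K₀ hK₀ σ hσ ⟨y₀, hy₀, hσy⟩ Q θ hθ hQ (i t) b₀ c hb₀ hDD
  have hαc := hα.isClosedForm
  have hθc := hθ.isClosedForm
  obtain ⟨C', hC'⟩ := H564.mixX_growth hαc hθc hα.posSemidef hθ.posSemidef hθν
  obtain ⟨ν', e, x, hx, hP, hrk, hmax⟩ := H575.MFS.exists_point (θ := θ) (α := α) hθc hαc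
    hα.posSemidef hαd
  have hνν : ν' = ν := by
    obtain ⟨x₁⟩ : Nonempty X := inferInstance
    obtain ⟨x₂, hx₂⟩ := hθd.nonempty
    exact le_antisymm (hrk ▸ hθν e x hx) (hx₂ ▸ hmax (chartAt (Cm n) x₂) x₂ (at_chartAt x₂))
  subst hνν
  obtain ⟨c₁, hc₁, hlow⟩ := H575.MFS.lowPart n X α θ hα hθ ν' hν e x hx hP hrk
  have hcl : IsClosedForm (clsK φ (fun i => Δ (Dv i)) R) := H342.KG.closed_cls hBd.closed hφ
  have hm0 : (0 : ℝ) < m' := by exact_mod_cast hm'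
  have key : ∀ s : ℝ, 1 ≤ s → c₁ * s ≤ C₁ + b * C' := by
    intro s hs
    have hs0 : 0 < s := lt_of_lt_of_le one_pos hs
    have hA : IsClosedForm (addF α s θ) := isClosed_addF hαc hθc s
    have hA0 : ∀ e x, At e x → (addF α s θ e (e x)).PosSemidef := fun e y hy =>
      (hα.posSemidef e y hy).add ((hθ.posSemidef e y hy).smul (by exact_mod_cast hs0.le))
    have e1 := hsec _ hA hA0
    have e2 := eff n M X χ hχ Dv r R hBd φ hφ (fun i => (K₀ (Dv i) : ℝ) / m')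
      (fun i => Δ (Dv i)) (fun i => by
        show (K₀ (Dv i) : ℝ) / m' ≤ Δ (Dv i)
        rw [div_le_iff₀ hm0, mul_comm]
        exact hK₀ (Dv i)) _ hA hA0
    have e3 := H575.MFS.mixX_add (Λ' := H156.MFS.clsM φ (fun i => Δ (Dv i)) R α) hA hχ hcl hαc
      (fun e x _ => rfl)
    have e4 := hgrow s hs
    have e5 := hlow s hs
    have e6 := mul_le_mul_of_nonneg_left (hC' s hs) hb
    have hsν : 0 < s ^ ν' := pow_pos hs0 ν'
    have e7 : c₁ * s ^ ν' ≤ C₁ * s ^ ν' / s + b * (C' * s ^ ν' / s) := by linarith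
    have e8 : C₁ * s ^ ν' / s + b * (C' * s ^ ν' / s) = (C₁ + b * C') / s * s ^ ν' := by ring
    rw [e8] at e7
    have e9 := le_of_mul_le_mul_right e7 hsν
    rwa [le_div_iff₀ hs0] at e9
  have h1 := key (max 1 ((C₁ + b * C') / c₁ + 1)) (le_max_left _ _)
  have h2 : (C₁ + b * C') / c₁ + 1 ≤ max 1 ((C₁ + b * C') / c₁ + 1) := le_max_right _ _
  have h3 := mul_le_mul_of_nonneg_left h2 hc₁.le
  have h4 : c₁ * ((C₁ + b * C') / c₁ + 1) = C₁ + b * C' + c₁ := by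
    field_simp
  linarith

/-- **Theorem ML** from its rows. -/
theorem mainPartML_of (hM : MainPartM) (hT : H167.RC.TensT) (hform : FormPartG)
    (hgr : GrowthPartM) (sec : SecPart) (rk : RankPart) (eff : EffPart) (fib : FibPartL)
    (rat : RatPartM) : MainPartML := by
  intro n p d hn X Z Y F _ _ _ _ _ _ _ _ _ _ _ _ _ _ _ _ _ _ _ _ χ hχ Δ hΔ m hm k hk α θ hα hθ
    hor hαd ν hν hθν hθd W hW j hj f hf i hi hiΔ hαF νF hνF hF
  rw [WithBot.add_eq_bot, or_iff_not_imp_right]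
  intro hne
  -- a pull-back section
  obtain ⟨m', K₀, 𝒢, σ, y, h1, h2, h3, h4, h5, h6, h7⟩ : ∃ (m' : ℕ) (K₀ : Set X → ℕ)
      (𝒢 : Set (Set Y)) (σ : Y → ℂ) (y : Y), 0 < m' ∧ (∀ D, (K₀ D : ℝ) ≤ m' * Δ D) ∧ 𝒢.Finite ∧
      (∀ G ∈ 𝒢, J.IsPrime (Cm p) G) ∧
      TL.IsPullSection (n := n) (p := p) m' K₀ 𝒢 j f σ ∧ (∀ G ∈ 𝒢, y ∉ G) ∧ σ y ≠ 0 := by
    by_contra hcon
    apply hne
    rw [TL.kodF, eq_bot_iff]
    refine iSup_le fun l => iSup_le ?_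
    rintro ⟨m', K₀, 𝒢, σ, y, h1, h2, h3, h4, h5, h6, h7, -⟩
    exact absurd ⟨m', K₀, 𝒢, σ 0, y, h1, h2, h3, h4, h5 0, h6, h7⟩ hcon
  have hF' := fib_of_rat rat hT hn hΔ hα hθ hj hf hi hF h1 h2 h3 h4 h5 h6 h7
  by_cases hΔ1 : ∀ D, Δ D < 1
  · refine (WithBot.add_eq_bot.1 (hM n p d hn X Z Y F χ hχ Δ hΔ hΔ1 m hm k hk α θ hα hθ hαd ν hν
      hθν hθd W hW j hj f hf i hi hiΔ hαF νF hνF fun t => ?_)).resolve_right hne
    obtain ⟨r, g, a, k1, k2, k3⟩ := hF' t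
    refine ⟨r, g, a, k1, k2, k3.mono fun s hs l h0 => ?_⟩
    rcases hs l h0 with h | h
    · exact Or.inl h.2
    · exact Or.inr h
  · obtain ⟨N, Q, hQ⟩ := hor.resolve_left hΔ1
    refine kod_eq_bot fun m₁ k₁ s t hm₁ hk₁ hs ht => ?_
    refine fib n p d hn X Z Y F χ hχ Δ hΔ m hm k hk α θ hα hθ W j hj f hf i hi hiΔ hαF νF hνF
      (fun t => ?_) (fun t => rank_lt hform hgr sec rk eff hn hχ hΔ hm hk hα hθ hQ hαd hν hθν hθd hW
        hj hf hi h1 h2 h3 h4 h5 h6 h7 t) m₁ hm₁ k₁ hk₁ s hs t ht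
    obtain ⟨r, g, a, k1, k2, k3⟩ := hF' t
    refine ⟨r, g, a, k1, k2, k3.mono fun s hs l h0 => ?_⟩
    rcases hs l h0 with h | h
    · exact absurd h.1 hΔ1
    · exact h

end Vale.Agent.P281.H368.ML
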